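import Vale.Agent.P344.Multi

namespace Vale.Agent.Results.P344.SubNLogN

open Vale.Agent.P344 Filter

theorem result :
    (∃ C : ℝ, ∀ n : ℕ, 2 ≤ n →
      (∃ gs : List Gate, ComputesDFT n gs ∧
        (gs.length : ℝ) ≤ C * n * Real.logb 2 n ^ (1 - 1 / 10 ^ 10 : ℝ)) ∧
      (L n : ℝ) ≤ C * n * Real.logb 2 n ^ (1 - 1 / 10 ^ 10 : ℝ)) ∧
    ¬ ∃ c : ℝ, 0 < c ∧ ∀ᶠ n : ℕ in atTop, c * n * Real.logb 2 n ≤ L n := by
  obtain ⟨C, hC⟩ := main_bound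
  refine ⟨⟨C, fun n hn => ⟨?_, L_le_of_MC (hC n hn)⟩⟩, ?_⟩
  · obtain ⟨gs, h1, h2⟩ := exists_circuit_of_MC (hC n hn)
    exact ⟨gs, h2, h1⟩
  · rintro ⟨c, hc, h⟩
    have t1 : Tendsto (fun n : ℕ => Real.logb 2 n) atTop atTop :=
      (Real.tendsto_logb_atTop one_lt_two).comp tendsto_natCast_atTop_atTop
    have t2 : Tendsto (fun n : ℕ => c * Real.logb 2 n ^ (1 / 10 ^ 10 : ℝ)) atTop atTop :=
      ((tendsto_rpow_atTop (by norm_num)).comp t1).const_mul_atTop hc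
    obtain ⟨n, ⟨h1, h2⟩, h3⟩ := ((h.and (t2.eventually_gt_atTop C)).and
      (eventually_ge_atTop 2)).exists
    have h4 := h1.trans (L_le_of_MC (hC n h3))
    have hn : (2 : ℝ) ≤ n := by exact_mod_cast h3
    have hx : 0 < Real.logb 2 n := Real.logb_pos one_lt_two (by linarith)
    generalize Real.logb 2 n = x at *
    have e : x = x ^ (1 / 10 ^ 10 : ℝ) * x ^ (1 - 1 / 10 ^ 10 : ℝ) := by
      rw [← Real.rpow_add hx]; simp
    have hp : 0 < (n : ℝ) * x ^ (1 - 1 / 10 ^ 10 : ℝ) := by positivity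
    have h5 := mul_lt_mul_of_pos_right h2 hp
    have h6 : c * n * x = c * x ^ (1 / 10 ^ 10 : ℝ) * (n * x ^ (1 - 1 / 10 ^ 10 : ℝ)) := by
      conv_lhs => rw [e]
      ring
    linarith

end Vale.Agent.Results.P344.SubNLogN
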